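import Mathlib

/-!
# A symmetrised Cauchy-Binet formula
-/

namespace Vale.Agent.H27.DFT

open Matrix Finset

variable {ι : Type} [Fintype ι] [DecidableEq ι] {r : ℕ}

theorem det_mul_rect (A : Matrix (Fin r) ι ℂ) (B : Matrix ι (Fin r) ℂ) :
    (A * B).det = ∑ f : Fin r → ι, (∏ i, A i (f i)) * (B.submatrix f id).det := by
  have h : (A * B) = fun i => ∑ j, A i j • B j := by
    ext i k
    simp [Matrix.mul_apply, Finset.sum_apply]
  have h1 : (A * B).det = (detRowAlternating (R := ℂ) (n := Fin r)).toMultilinearMap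
      (fun i => ∑ j, A i j • B j) := by
    rw [h]; rfl
  rw [h1, MultilinearMap.map_sum]
  refine Finset.sum_congr rfl fun f _ => ?_
  rw [MultilinearMap.map_smul_univ]
  rfl

theorem sum_det_mul_det (A : Matrix (Fin r) ι ℂ) (B : Matrix ι (Fin r) ℂ) :
    ∑ f : Fin r → ι, (A.submatrix id f).det * (B.submatrix f id).det =
      (Nat.factorial r : ℂ) * (A * B).det := by
  have h1 : ∀ f : Fin r → ι, (A.submatrix id f).det * (B.submatrix f id).det =
      ∑ σ : Equiv.Perm (Fin r), (∏ i, A i (f (σ⁻¹ i))) *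
        (((Equiv.Perm.sign σ : ℤ) : ℂ) * (B.submatrix f id).det) := by
    intro f
    rw [Matrix.det_apply', Finset.sum_mul]
    refine Finset.sum_congr rfl fun σ _ => ?_
    have h2 : ∏ i, (A.submatrix id f) (σ i) i = ∏ i, A i (f (σ⁻¹ i)) := by
      rw [← Equiv.prod_comp σ (fun i => A i (f (σ⁻¹ i)))]
      simp
    rw [h2]; ring
  rw [Finset.sum_congr rfl fun f _ => h1 f, Finset.sum_comm]
  have h3 : ∀ σ : Equiv.Perm (Fin r), ∑ f : Fin r → ι, (∏ i, A i (f (σ⁻¹ i))) *
        (((Equiv.Perm.sign σ : ℤ) : ℂ) * (B.submatrix f id).det) = (A * B).det := by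
    intro σ
    rw [det_mul_rect A B]
    let e : (Fin r → ι) ≃ (Fin r → ι) :=
      ⟨fun g => g ∘ σ, fun g => g ∘ σ.symm, fun g => by ext; simp, fun g => by ext; simp⟩
    rw [← Equiv.sum_comp e]
    refine Finset.sum_congr rfl fun g _ => ?_
    have h4 : ∀ i, (e g) (σ⁻¹ i) = g i := fun i => by simp [e]
    have h5 : (B.submatrix (e g) id).det = ((Equiv.Perm.sign σ : ℤ) : ℂ) * (B.submatrix g id).det := by
      have : B.submatrix (e g) id = (B.submatrix g id).submatrix σ id := rfl
      rw [this, Matrix.det_permute]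
    simp only [h4, h5]
    have h6 : (((Equiv.Perm.sign σ : ℤ) : ℂ)) * ((Equiv.Perm.sign σ : ℤ) : ℂ) = 1 := by
      rw [← Int.cast_mul]
      rcases Int.units_eq_one_or (Equiv.Perm.sign σ) with h | h <;> simp [h]
    calc (∏ i, A i (g i)) * (((Equiv.Perm.sign σ : ℤ) : ℂ) *
          (((Equiv.Perm.sign σ : ℤ) : ℂ) * (B.submatrix g id).det))
        = (∏ i, A i (g i)) * ((((Equiv.Perm.sign σ : ℤ) : ℂ) * ((Equiv.Perm.sign σ : ℤ) : ℂ)) *
          (B.submatrix g id).det) := by ring
      _ = _ := by rw [h6, one_mul]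
  rw [Finset.sum_congr rfl fun σ _ => h3 σ]
  simp [Finset.card_univ, Fintype.card_perm, nsmul_eq_mul]

/-- the sum of the squares of the maximal minors -/
theorem sum_norm_det_sq (G : Matrix ι (Fin r) ℂ) :
    ((∑ f : Fin r → ι, ‖(G.submatrix f id).det‖ ^ 2 : ℝ) : ℂ) =
      (Nat.factorial r : ℂ) * (Gᴴ * G).det := by
  rw [← sum_det_mul_det]
  push_cast
  refine Finset.sum_congr rfl fun f _ => ?_
  have h : (Gᴴ.submatrix id f).det = star (G.submatrix f id).det := by
    rw [← Matrix.det_conjTranspose]; rfl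
  rw [h]
  have : star (G.submatrix f id).det * (G.submatrix f id).det =
      (Complex.normSq (G.submatrix f id).det : ℂ) := by
    rw [mul_comm]
    exact Complex.mul_conj _
  rw [this, Complex.normSq_eq_norm_sq]
  push_cast
  rfl

theorem det_submatrix_eq_zero (G : Matrix ι (Fin r) ℂ) {f : Fin r → ι}
    (hf : ¬ Function.Injective f) : (G.submatrix f id).det = 0 := by
  rw [Function.not_injective_iff] at hf
  obtain ⟨i, j, hij, hne⟩ := hf
  exact Matrix.det_zero_of_row_eq hne (by ext k; simp [hij])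

/-- minors of a matrix with orthonormal columns are at most `1` in modulus -/
theorem norm_det_le_one (W : Matrix ι (Fin r) ℂ) (hW : Wᴴ * W = 1) (f : Fin r → ι) :
    ‖(W.submatrix f id).det‖ ≤ 1 := by
  classical
  by_cases hf : Function.Injective f
  swap
  · rw [det_submatrix_eq_zero W hf]; simp
  have h1 := sum_norm_det_sq W
  rw [hW, Matrix.det_one, mul_one] at h1
  have h2 : (∑ g : Fin r → ι, ‖(W.submatrix g id).det‖ ^ 2 : ℝ) = (Nat.factorial r : ℝ) := by
    exact_mod_cast h1
  have h3 : ∑ σ : Equiv.Perm (Fin r), ‖(W.submatrix (f ∘ σ) id).det‖ ^ 2 ≤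
      ∑ g : Fin r → ι, ‖(W.submatrix g id).det‖ ^ 2 := by
    have hinj : Function.Injective fun σ : Equiv.Perm (Fin r) => f ∘ σ := by
      intro σ τ h
      ext i
      have := congrFun h i
      exact congrArg _ (hf this)
    rw [← Finset.sum_image (f := fun g : Fin r → ι => ‖(W.submatrix g id).det‖ ^ 2)
      (s := Finset.univ) (g := fun σ : Equiv.Perm (Fin r) => f ∘ σ) (fun _ _ _ _ h => hinj h)]
    exact Finset.sum_le_sum_of_subset_of_nonneg (Finset.subset_univ _) fun _ _ _ => by positivity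
  have h4 : ∀ σ : Equiv.Perm (Fin r), ‖(W.submatrix (f ∘ σ) id).det‖ ^ 2 =
      ‖(W.submatrix f id).det‖ ^ 2 := by
    intro σ
    have : W.submatrix (f ∘ σ) id = (W.submatrix f id).submatrix σ id := rfl
    rw [this, Matrix.det_permute, norm_mul]
    rcases Int.units_eq_one_or (Equiv.Perm.sign σ) with h | h <;> simp [h]
  rw [Finset.sum_congr rfl fun σ _ => h4 σ, h2] at h3
  simp only [Finset.sum_const, Finset.card_univ, Fintype.card_perm, Fintype.card_fin,
    nsmul_eq_mul] at h3
  have h5 : (0 : ℝ) < Nat.factorial r := by positivity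
  have h6 : ‖(W.submatrix f id).det‖ ^ 2 ≤ 1 := by
    by_contra hlt
    push Not at hlt
    nlinarith
  nlinarith [norm_nonneg (W.submatrix f id).det]

/-- lower bound for the largest minor -/
theorem pow_le_choose_mul (G : Matrix ι (Fin r) ℂ) {c : ℝ} (hG : (Gᴴ * G).det = (c : ℂ))
    {M : ℝ} (hM : ∀ f : Fin r → ι, ‖(G.submatrix f id).det‖ ≤ M) :
    c ≤ (Fintype.card ι).choose r * M ^ 2 := by
  classical
  have h1 := sum_norm_det_sq G
  rw [hG] at h1
  have h2 : (∑ g : Fin r → ι, ‖(G.submatrix g id).det‖ ^ 2 : ℝ) = (Nat.factorial r : ℝ) * c := by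
    exact_mod_cast h1
  have h3 : ∑ g : Fin r → ι, ‖(G.submatrix g id).det‖ ^ 2 =
      ∑ g ∈ Finset.univ.filter (fun g : Fin r → ι => Function.Injective g),
        ‖(G.submatrix g id).det‖ ^ 2 := by
    symm
    apply Finset.sum_subset (Finset.filter_subset _ _)
    intro g _ hg
    simp only [Finset.mem_filter, Finset.mem_univ, true_and] at hg
    rw [det_submatrix_eq_zero G hg]; simp
  have h4 : (Finset.univ.filter (fun g : Fin r → ι => Function.Injective g)).card =
      (Fintype.card ι).descFactorial r := by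
    rw [← Fintype.card_subtype]
    rw [Fintype.card_congr (Equiv.subtypeInjectiveEquivEmbedding (Fin r) ι),
      Fintype.card_embedding_eq, Fintype.card_fin]
  have h5 : (Nat.factorial r : ℝ) * c ≤ ((Fintype.card ι).descFactorial r : ℝ) * M ^ 2 := by
    rw [← h2, h3, ← h4, ← nsmul_eq_mul]
    apply Finset.sum_le_card_nsmul
    intro g _
    exact pow_le_pow_left₀ (norm_nonneg _) (hM g) 2
  rw [Nat.descFactorial_eq_factorial_mul_choose] at h5
  push_cast at h5
  have h6 : (0 : ℝ) < Nat.factorial r := by positivity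
  rw [mul_assoc] at h5
  exact le_of_mul_le_mul_left h5 h6

end Vale.Agent.H27.DFT
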