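import Mathlib

/-!
# Linear circuits for the discrete Fourier transform
-/

namespace Vale.Agent.H27.DFT

/-- A gate of a linear circuit: sum or difference of two previously computed values, or a
complex multiple of a previously computed value. Values are referred to by their index. -/
inductive Gate : Type
  | add (i j : ℕ) : Gate
  | sub (i j : ℕ) : Gate
  | smul (c : ℂ) (i : ℕ) : Gate

/-- The value of a gate, given the list `v` of the values computed so far
(indices outside the list refer to the constant `0`). -/
def Gate.val {M : Type} [AddCommGroup M] [Module ℂ M] (v : List M) : Gate → M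
  | .add i j => v.getD i 0 + v.getD j 0
  | .sub i j => v.getD i 0 - v.getD j 0
  | .smul c i => c • v.getD i 0

/-- All values computed by the circuit with gates `gs`, starting from the list `v` of inputs;
the value of each gate is appended to the list. -/
def run {M : Type} [AddCommGroup M] [Module ℂ M] (v : List M) (gs : List Gate) : List M :=
  gs.foldl (fun v g => v ++ [g.val v]) v

/-- The circuit `gs` with inputs `x_0, …, x_{n-1}` computes the unnormalised discrete Fourier
transform `F_n x`: the `j`-th output is a designated computed value. -/
def ComputesDFT (n : ℕ) (gs : List Gate) : Prop :=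
  ∃ out : Fin n → ℕ, ∀ (x : Fin n → ℂ) (j : Fin n),
    (run (List.ofFn x) gs).getD (out j) 0 =
      ∑ k : Fin n, Complex.exp (2 * Real.pi * Complex.I / n) ^ ((j : ℕ) * (k : ℕ)) * x k

/-- The weight of a gate, with respect to a field embedding `σ : ℂ → ℂ`: additions and
subtractions weigh `1`, a multiplication by `c` weighs `log₂ max(1, |σ(c)|)`. -/
noncomputable def Gate.weight (σ : ℂ →+* ℂ) : Gate → ℝ
  | .add _ _ => 1
  | .sub _ _ => 1
  | .smul c _ => Real.logb 2 (max 1 ‖σ c‖)

/-- `g` is a multiplication by some `c` with `|σ(c)| > C`. -/
def Gate.Big (σ : ℂ →+* ℂ) (C : ℝ) : Gate → Prop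
  | .add _ _ => False
  | .sub _ _ => False
  | .smul c _ => C < ‖σ c‖

end Vale.Agent.H27.DFT
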