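import Vale.Agent.H27.DFT.Defs
import Vale.Agent.H27.DFT.CB

/-!
# The determinant potential
-/

namespace Vale.Agent.H27.DFT

open Matrix

section run
variable {M N : Type} [AddCommGroup M] [Module ℂ M] [AddCommGroup N] [Module ℂ N]

/-- change of coefficients -/
def Gate.map (σ : ℂ →+* ℂ) : Gate → Gate
  | .add i j => .add i j
  | .sub i j => .sub i j
  | .smul c i => .smul (σ c) i

theorem getD_map_zero (φ : M →+ N) (v : List M) (i : ℕ) :
    (v.map φ).getD i 0 = φ (v.getD i 0) := by
  rw [← map_zero φ, List.getD_map]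

theorem run_nil (v : List M) : run v [] = v := rfl

theorem run_append (v : List M) (gs hs : List Gate) : run v (gs ++ hs) = run (run v gs) hs := by
  simp [run]

theorem run_concat (v : List M) (gs : List Gate) (g : Gate) :
    run v (gs ++ [g]) = run v gs ++ [g.val (run v gs)] := by
  simp [run]

theorem map_run (σ : ℂ →+* ℂ) (φ : M →+ N) (hφ : ∀ (c : ℂ) (m : M), φ (c • m) = σ c • φ m)
    (v : List M) (gs : List Gate) :
    (run v gs).map φ = run (v.map φ) (gs.map (Gate.map σ)) := by
  induction gs using List.reverseRecOn with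
  | nil => rfl
  | append_singleton gs g ih =>
    rw [run_concat, List.map_append, List.map_append, List.map_singleton, List.map_singleton,
      run_concat, ih]
    congr 2
    rcases g with ⟨i, j⟩ | ⟨i, j⟩ | ⟨c, i⟩
    · simp only [Gate.val, Gate.map, map_add, ← ih, getD_map_zero]
    · simp only [Gate.val, Gate.map, map_sub, ← ih, getD_map_zero]
    · simp only [Gate.val, Gate.map, hφ, ← ih, getD_map_zero]

end run

variable {n r : ℕ}

/-- rows `π(u_i)` -/
noncomputable def rows (W : Matrix (Fin n) (Fin r) ℂ) (L : List (Fin n → ℂ)) (t : Fin r → ℕ) :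
    Matrix (Fin r) (Fin r) ℂ :=
  Matrix.of fun i => (L.getD (t i) 0) ᵥ* W

/-- all minors of the list are at most `B` in modulus -/
def Bdd (W : Matrix (Fin n) (Fin r) ℂ) (L : List (Fin n → ℂ)) (B : ℝ) : Prop :=
  ∀ t : Fin r → ℕ, ‖(rows W L t).det‖ ≤ B

theorem Bdd.nonneg {W : Matrix (Fin n) (Fin r) ℂ} {L : List (Fin n → ℂ)} {B : ℝ}
    (h : Bdd W L B) : 0 ≤ B := (norm_nonneg _).trans (h fun _ => 0)

theorem bdd_concat {W : Matrix (Fin n) (Fin r) ℂ} {L : List (Fin n → ℂ)} {B B' : ℝ}
    (h : Bdd W L B) (hB : B ≤ B') (u : Fin n → ℂ)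
    (hu : ∀ (t : Fin r → ℕ) (i : Fin r), ‖((rows W L t).updateRow i (u ᵥ* W)).det‖ ≤ B') :
    Bdd W (L ++ [u]) B' := by
  classical
  intro t
  have hB' : 0 ≤ B' := h.nonneg.trans hB
  by_cases h0 : ∃ i, t i = L.length
  · obtain ⟨i, hi⟩ := h0
    by_cases h1 : ∃ j, j ≠ i ∧ t j = L.length
    · obtain ⟨j, hj, hj'⟩ := h1
      have : (rows W (L ++ [u]) t).det = 0 := by
        apply Matrix.det_zero_of_row_eq hj
        show ((L ++ [u]).getD (t j) 0) ᵥ* W = ((L ++ [u]).getD (t i) 0) ᵥ* W
        rw [hi, hj']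
      rw [this, norm_zero]; exact hB'
    · push Not at h1
      have : rows W (L ++ [u]) t = (rows W L t).updateRow i (u ᵥ* W) := by
        ext j k
        by_cases hj : j = i
        · subst hj
          simp [rows, hi]
        · rw [Matrix.updateRow_ne hj]
          simp only [rows, Matrix.of_apply]
          have h2 := h1 j hj
          rcases Nat.lt_or_gt_of_ne h2 with h3 | h3
          · rw [List.getD_append _ _ _ _ h3]
          · rw [List.getD_eq_default _ _ (by simp; omega), List.getD_eq_default _ _ (by omega)]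
      rw [this]; exact hu t i
  · push Not at h0
    have : rows W (L ++ [u]) t = rows W L t := by
      ext j k
      simp only [rows, Matrix.of_apply]
      rcases Nat.lt_or_gt_of_ne (h0 j) with h3 | h3
      · rw [List.getD_append _ _ _ _ h3]
      · rw [List.getD_eq_default _ _ (by simp; omega), List.getD_eq_default _ _ (by omega)]
    rw [this]; exact (h t).trans hB

theorem updateRow_getD {W : Matrix (Fin n) (Fin r) ℂ} {L : List (Fin n → ℂ)} (t : Fin r → ℕ)
    (i : Fin r) (a : ℕ) :
    (rows W L t).updateRow i ((L.getD a 0) ᵥ* W) = rows W L (Function.update t i a) := by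
  classical
  ext j k
  by_cases hj : j = i
  · subst hj
    simp [rows]
  · rw [Matrix.updateRow_ne hj]
    simp [rows, Function.update_of_ne hj]

/-- multiplicative weight -/
noncomputable def mw (σ : ℂ →+* ℂ) : Gate → ℝ
  | .add _ _ => 2
  | .sub _ _ => 2
  | .smul c _ => max 1 ‖σ c‖

theorem one_le_mw (σ : ℂ →+* ℂ) (g : Gate) : 1 ≤ mw σ g := by
  rcases g with ⟨i, j⟩ | ⟨i, j⟩ | ⟨c, i⟩ <;> simp [mw]

theorem logb_mw (σ : ℂ →+* ℂ) (g : Gate) : Real.logb 2 (mw σ g) = g.weight σ := by
  rcases g with ⟨i, j⟩ | ⟨i, j⟩ | ⟨c, i⟩ <;> simp [mw, Gate.weight]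

theorem bdd_gate {W : Matrix (Fin n) (Fin r) ℂ} {L : List (Fin n → ℂ)} {B : ℝ}
    (h : Bdd W L B) (σ : ℂ →+* ℂ) (g : Gate) :
    Bdd W (L ++ [(g.map σ).val L]) (mw σ g * B) := by
  classical
  have hB := h.nonneg
  have h1 : B ≤ mw σ g * B := le_mul_of_one_le_left hB (one_le_mw σ g)
  refine bdd_concat h h1 _ fun t i => ?_
  rcases g with ⟨a, b⟩ | ⟨a, b⟩ | ⟨c, a⟩
  · simp only [Gate.map, Gate.val, Matrix.add_vecMul, mw]
    rw [Matrix.det_updateRow_add, updateRow_getD, updateRow_getD]
    calc _ ≤ _ := norm_add_le _ _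
      _ ≤ B + B := add_le_add (h _) (h _)
      _ = 2 * B := by ring
  · simp only [Gate.map, Gate.val, mw]
    have h2 : (L.getD a 0 - L.getD b 0) ᵥ* W = (L.getD a 0) ᵥ* W + (-1 : ℂ) • ((L.getD b 0) ᵥ* W) := by
      rw [Matrix.sub_vecMul]; simp [sub_eq_add_neg]
    rw [h2, Matrix.det_updateRow_add, Matrix.det_updateRow_smul, updateRow_getD, updateRow_getD]
    calc _ ≤ _ := norm_add_le _ _
      _ ≤ B + B := add_le_add (h _) (by simpa using h _)
      _ = 2 * B := by ring
  · simp only [Gate.map, Gate.val, mw, Matrix.smul_vecMul]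
    rw [Matrix.det_updateRow_smul, updateRow_getD, norm_mul]
    exact mul_le_mul (le_max_right _ _) (h _) (norm_nonneg _) (by positivity)

theorem bdd_free {W : Matrix (Fin n) (Fin r) ℂ} {L : List (Fin n → ℂ)} {B : ℝ}
    (h : Bdd W L B) {u : Fin n → ℂ} (hu : u ᵥ* W = 0) : Bdd W (L ++ [u]) B := by
  refine bdd_concat h le_rfl u fun t i => ?_
  have : ((rows W L t).updateRow i (u ᵥ* W)).det = 0 := by
    rw [hu]
    apply Matrix.det_eq_zero_of_row_eq_zero i
    intro j; simp
  rw [this, norm_zero]; exact h.nonneg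

/-- the list of the basis vectors -/
def basisList (n : ℕ) : List (Fin n → ℂ) := List.ofFn fun i : Fin n => Pi.single i (1 : ℂ)

theorem bdd_basis {W : Matrix (Fin n) (Fin r) ℂ} (hW : Wᴴ * W = 1) :
    Bdd W (basisList n) 1 := by
  classical
  intro t
  by_cases ht : ∀ i, t i < n
  · have : rows W (basisList n) t = W.submatrix (fun i => (⟨t i, ht i⟩ : Fin n)) id := by
      ext i k
      simp only [rows, Matrix.of_apply, Matrix.submatrix_apply, id_eq]
      have h1 : (basisList n).getD (t i) 0 = Pi.single (⟨t i, ht i⟩ : Fin n) (1 : ℂ) := by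
        rw [List.getD_eq_getElem _ _ (by simp [basisList, ht i])]
        simp [basisList]
      rw [h1]
      simp
    rw [this]
    exact norm_det_le_one W hW _
  · push Not at ht
    obtain ⟨i, hi⟩ := ht
    have : (rows W (basisList n) t).det = 0 := by
      apply Matrix.det_eq_zero_of_row_eq_zero i
      intro k
      simp only [rows, Matrix.of_apply]
      rw [List.getD_eq_default _ _ (by simp [basisList, hi])]
      simp
    rw [this]; simp

/-- product of the weights of the gates outside `K`, positions counted from `p` -/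
noncomputable def wprod (σ : ℂ →+* ℂ) (K : Finset ℕ) (gs : List Gate) (p : ℕ) : ℝ :=
  ∏ q ∈ (Finset.range p).filter (fun q => q ∉ K), mw σ (gs.getD q (.add 0 0))

theorem bdd_run {W : Matrix (Fin n) (Fin r) ℂ} (hW : Wᴴ * W = 1) (σ : ℂ →+* ℂ) (K : Finset ℕ)
    (gs : List Gate)
    (hK : ∀ q ∈ K, ((run (basisList n) (gs.map (Gate.map σ))).getD (n + q) 0) ᵥ* W = 0) (p : ℕ)
    (hp : p ≤ gs.length) :
    Bdd W (run (basisList n) ((gs.take p).map (Gate.map σ))) (wprod σ K gs p) := by
  classical
  induction p with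
  | zero => simpa [wprod, run] using bdd_basis hW
  | succ p ih =>
    have hlt : p < gs.length := hp
    have ih' := ih hlt.le
    have e1 : gs.take (p + 1) = gs.take p ++ [gs[p]] := by
      rw [List.take_add_one, List.getElem?_eq_getElem hlt]; rfl
    have e2 : run (basisList n) ((gs.take (p + 1)).map (Gate.map σ)) =
        run (basisList n) ((gs.take p).map (Gate.map σ)) ++
          [(Gate.map σ gs[p]).val (run (basisList n) ((gs.take p).map (Gate.map σ)))] := by
      rw [e1, List.map_append, List.map_singleton, run_concat]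
    have e3 : gs.getD p (.add 0 0) = gs[p] := List.getD_eq_getElem _ _ hlt
    by_cases hpK : p ∈ K
    · have e4 : wprod σ K gs (p + 1) = wprod σ K gs p := by
        rw [wprod, wprod, Finset.range_add_one, Finset.filter_insert, if_neg (by simpa using hpK)]
      rw [e2, e4]
      refine bdd_free ih' ?_
      have h1 := hK p hpK
      -- the value at index `n + p`
      have hlen : ∀ (v : List (Fin n → ℂ)) (hs : List Gate), (run v hs).length =
          v.length + hs.length := by
        intro v hs
        induction hs using List.reverseRecOn with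
        | nil => simp [run]
        | append_singleton hs g ih => rw [run_concat]; simp [ih]; ring
      have h2 : gs = gs.take (p + 1) ++ gs.drop (p + 1) := (List.take_append_drop _ _).symm
      have hpre : ∀ (v : List (Fin n → ℂ)) (hs : List Gate), ∃ s, run v hs = v ++ s := by
        intro v hs
        induction hs using List.reverseRecOn with
        | nil => exact ⟨[], by simp [run]⟩
        | append_singleton hs g ih =>
          obtain ⟨s, hs'⟩ := ih
          exact ⟨s ++ [g.val (v ++ s)], by rw [run_concat, hs', List.append_assoc]⟩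
      rw [h2, List.map_append, run_append] at h1
      obtain ⟨s, hs⟩ := hpre (run (basisList n) ((gs.take (p + 1)).map (Gate.map σ)))
        ((gs.drop (p + 1)).map (Gate.map σ))
      have hb : (basisList n).length = n := by simp [basisList]
      have hl : (run (basisList n) ((gs.take p).map (Gate.map σ))).length = n + p := by
        rw [hlen, hb, List.length_map, List.length_take]; omega
      rw [hs, e2, List.append_assoc, List.getD_append_right _ _ _ _ (by omega), hl] at h1
      simpa using h1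
    · have e4 : wprod σ K gs (p + 1) = mw σ gs[p] * wprod σ K gs p := by
        rw [wprod, wprod, Finset.range_add_one, Finset.filter_insert, if_pos (by simpa using hpK),
          Finset.prod_insert (by simp), e3]
      rw [e2, e4]
      exact bdd_gate ih' σ _

/-- orthonormal columns killed by `k` given linear forms -/
theorem exists_W (n : ℕ) {K : Finset ℕ} (u : ℕ → Fin n → ℂ) (hK : K.card ≤ n) :
    ∃ W : Matrix (Fin n) (Fin (n - K.card)) ℂ, Wᴴ * W = 1 ∧ ∀ q ∈ K, u q ᵥ* W = 0 := by
  classical
  let E := EuclideanSpace ℂ (Fin n)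
  let f : ℕ → E := fun q => WithLp.toLp 2 (fun i => star (u q i))
  let S : Submodule ℂ E := Submodule.span ℂ ((K.image f : Finset E) : Set E)
  have h1 : Module.finrank ℂ S ≤ K.card :=
    (finrank_span_finset_le_card _).trans Finset.card_image_le
  have h2 : Module.finrank ℂ S + Module.finrank ℂ Sᗮ = n := by
    rw [Submodule.finrank_add_finrank_orthogonal]; simp [E]
  have h3 : n - K.card ≤ Module.finrank ℂ Sᗮ := by omega
  let b := stdOrthonormalBasis ℂ Sᗮ
  let W : Matrix (Fin n) (Fin (n - K.card)) ℂ := Matrix.of fun i a =>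
    ((b (Fin.castLE h3 a) : Sᗮ) : E) i
  refine ⟨W, ?_, ?_⟩
  · ext a a'
    have h4 : (Wᴴ * W) a a' = inner ℂ ((b (Fin.castLE h3 a) : Sᗮ) : E) ((b (Fin.castLE h3 a') : Sᗮ) : E) := by
      rw [Matrix.mul_apply, PiLp.inner_apply]
      refine Finset.sum_congr rfl fun i _ => ?_
      simp only [Matrix.conjTranspose_apply, W, Matrix.of_apply]
      rw [mul_comm]
      rfl
    rw [h4, ← Submodule.coe_inner]
    rw [orthonormal_iff_ite.1 b.orthonormal]
    rw [Matrix.one_apply]
    simp [Fin.castLE_inj]
  · intro q hq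
    funext a
    have h5 : (u q ᵥ* W) a = inner ℂ (f q) ((b (Fin.castLE h3 a) : Sᗮ) : E) := by
      rw [PiLp.inner_apply]
      simp only [Matrix.vecMul, dotProduct]
      refine Finset.sum_congr rfl fun i _ => ?_
      simp only [W, Matrix.of_apply, f]
      rw [mul_comm]
      simp
    rw [h5]
    have h6 : f q ∈ S := Submodule.subset_span (by
      rw [Finset.coe_image]; exact ⟨q, hq, rfl⟩)
    exact Submodule.inner_right_of_mem_orthogonal h6 (b (Fin.castLE h3 a)).2

/-- the transformed Fourier matrix -/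
theorem fourier_gram {n : ℕ} (hn : 0 < n) (ω : ℂ) (hω : IsPrimitiveRoot ω n) :
    (Matrix.of fun j k : Fin n => ω ^ ((j : ℕ) * (k : ℕ)))ᴴ *
      (Matrix.of fun j k : Fin n => ω ^ ((j : ℕ) * (k : ℕ))) = (n : ℂ) • (1 : Matrix _ _ ℂ) := by
  have hnorm : ‖ω‖ = 1 := by
    have h1 : ‖ω‖ ^ n = 1 := by rw [← norm_pow, hω.pow_eq_one, norm_one]
    exact (pow_eq_one_iff_of_nonneg (norm_nonneg _) hn.ne').1 h1
  have hω0 : ω ≠ 0 := by
    intro h; rw [h, norm_zero] at hnorm; exact zero_ne_one hnorm
  have hconj : star ω = ω⁻¹ := by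
    rw [Complex.inv_def, Complex.normSq_eq_norm_sq, hnorm]; simp
  ext k l
  rw [Matrix.mul_apply, Matrix.smul_apply, Matrix.one_apply]
  simp only [Matrix.conjTranspose_apply, Matrix.of_apply, star_pow, hconj]
  by_cases hkl : k = l
  · subst hkl
    have : ∀ j : Fin n, ω⁻¹ ^ ((j : ℕ) * (k : ℕ)) * ω ^ ((j : ℕ) * (k : ℕ)) = 1 := by
      intro j; rw [← mul_pow, inv_mul_cancel₀ hω0, one_pow]
    rw [Finset.sum_congr rfl fun j _ => this j, if_pos rfl]
    simp
  · rw [if_neg hkl, smul_zero]
    -- sum of powers of `z = ω^l / ω^k`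
    set z : ℂ := ω ^ (l : ℕ) * (ω ^ (k : ℕ))⁻¹ with hz
    have h1 : ∀ j : Fin n, ω⁻¹ ^ ((j : ℕ) * (k : ℕ)) * ω ^ ((j : ℕ) * (l : ℕ)) = z ^ (j : ℕ) := by
      intro j
      rw [hz, mul_pow, ← pow_mul, inv_pow, inv_pow, ← pow_mul, mul_comm (l : ℕ), mul_comm (k : ℕ),
        mul_comm]
    rw [Finset.sum_congr rfl fun j _ => h1 j]
    rw [Fin.sum_univ_eq_sum_range (fun j => z ^ j) n]
    have hz1 : z ≠ 1 := by
      intro h
      rw [hz, mul_inv_eq_one₀ (pow_ne_zero _ hω0)] at h
      exact hkl (Fin.ext (hω.pow_inj k.2 l.2 h.symm))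
    have hzn : z ^ n = 1 := by
      rw [hz, mul_pow, inv_pow, ← pow_mul, ← pow_mul, mul_comm (l : ℕ), mul_comm (k : ℕ), pow_mul,
        pow_mul, hω.pow_eq_one]
      simp
    have := geom_sum_mul z n
    rw [hzn, sub_self] at this
    exact (mul_eq_zero.1 this).resolve_right (sub_ne_zero.2 hz1)

/-- the computed coefficient vectors -/
theorem coeff_eq {n : ℕ} {gs : List Gate} {out : Fin n → ℕ}
    (h : ∀ (x : Fin n → ℂ) (j : Fin n), (run (List.ofFn x) gs).getD (out j) 0 =
      ∑ k : Fin n, Complex.exp (2 * Real.pi * Complex.I / n) ^ ((j : ℕ) * (k : ℕ)) * x k)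
    (j : Fin n) : (run (basisList n) gs).getD (out j) 0 =
      fun k : Fin n => Complex.exp (2 * Real.pi * Complex.I / n) ^ ((j : ℕ) * (k : ℕ)) := by
  classical
  let φ : (Fin n → ℂ) → (Fin n → ℂ) →+ ℂ := fun x =>
    { toFun := fun u => ∑ k, u k * x k
      map_zero' := by simp
      map_add' := fun u v => by simp [add_mul, Finset.sum_add_distrib] }
  have h1 : ∀ x, (run (List.ofFn x) gs).getD (out j) 0 =
      φ x ((run (basisList n) gs).getD (out j) 0) := by
    intro x
    have h2 := map_run (RingHom.id ℂ) (φ x) (fun c m => by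
      simp [φ, Finset.mul_sum, mul_assoc]) (basisList n) gs
    have h3 : gs.map (Gate.map (RingHom.id ℂ)) = gs := by
      have : Gate.map (RingHom.id ℂ) = id := by
        funext g
        rcases g with ⟨i, j⟩ | ⟨i, j⟩ | ⟨c, i⟩ <;> simp [Gate.map]
      rw [this, List.map_id]
    have h4 : (basisList n).map (φ x) = List.ofFn x := by
      rw [basisList, List.map_ofFn]
      congr 1
      funext i
      simp [φ, Pi.single_apply]
    rw [h3, h4] at h2
    rw [← h2, getD_map_zero]
  funext k
  have h5 := h (Pi.single k 1) j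
  rw [h1] at h5
  simpa [φ, Pi.single_apply] using h5

theorem main_mul {n : ℕ} (hn : 0 < n) {gs : List Gate} (h : ComputesDFT n gs) (σ : ℂ →+* ℂ)
    (K : Finset ℕ) (hK : K.card ≤ n) :
    (n : ℝ) ^ (n - K.card) ≤ 2 ^ n * (wprod σ K gs gs.length) ^ 2 := by
  classical
  obtain ⟨out, hout⟩ := h
  set ζ : ℂ := Complex.exp (2 * Real.pi * Complex.I / n) with hζ
  have hprim : IsPrimitiveRoot ζ n := Complex.isPrimitiveRoot_exp n hn.ne'
  set L := run (basisList n) (gs.map (Gate.map σ)) with hL
  obtain ⟨W, hW, hKW⟩ := exists_W n (K := K) (fun q => L.getD (n + q) 0) hK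
  have hb := bdd_run hW σ K gs (fun q hq => hKW q hq) gs.length le_rfl
  rw [List.take_length, ← hL] at hb
  -- output vectors
  have hσ : IsPrimitiveRoot (σ ζ) n := hprim.map_of_injective σ.injective
  have hvec : ∀ j, L.getD (out j) 0 = fun k : Fin n => (σ ζ) ^ ((j : ℕ) * (k : ℕ)) := by
    intro j
    have h1 := coeff_eq hout j
    let ψ : (Fin n → ℂ) →+ (Fin n → ℂ) :=
      { toFun := fun u k => σ (u k)
        map_zero' := by funext k; simp
        map_add' := fun u v => by funext k; simp }
    have h2 := map_run σ ψ (fun c m => by funext k; simp [ψ]) (basisList n) gs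
    have h3 : (basisList n).map ψ = basisList n := by
      rw [basisList, List.map_ofFn]
      congr 1
      funext i k
      by_cases hik : k = i
      · subst hik; simp [ψ]
      · simp [ψ, hik]
    rw [h3, ← hL] at h2
    rw [← h2, getD_map_zero, h1]
    funext k
    simp [ψ, hζ]
  set V : Matrix (Fin n) (Fin n) ℂ := Matrix.of fun j k : Fin n => (σ ζ) ^ ((j : ℕ) * (k : ℕ)) with hV
  have hgram : Vᴴ * V = (n : ℂ) • (1 : Matrix _ _ ℂ) := fourier_gram hn _ hσ
  have hdet : ((V * W)ᴴ * (V * W)).det = (((n : ℝ) ^ (n - K.card) : ℝ) : ℂ) := by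
    rw [Matrix.conjTranspose_mul, Matrix.mul_assoc, ← Matrix.mul_assoc Vᴴ V W, hgram,
      Matrix.smul_mul, Matrix.one_mul, Matrix.mul_smul, hW, Matrix.det_smul]
    simp
  have hminor : ∀ f : Fin (n - K.card) → Fin n, ‖((V * W).submatrix f id).det‖ ≤
      wprod σ K gs gs.length := by
    intro f
    have h1 := hb (fun i => out (f i))
    have h2 : rows W L (fun i => out (f i)) = (V * W).submatrix f id := by
      ext i k
      simp only [rows, Matrix.of_apply, hvec, Matrix.submatrix_apply, id_eq]
      rw [Matrix.mul_apply]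
      rfl
    rwa [h2] at h1
  have hfin := pow_le_choose_mul (V * W) hdet hminor
  refine hfin.trans ?_
  rw [Fintype.card_fin]
  refine mul_le_mul_of_nonneg_right ?_ (by positivity)
  exact_mod_cast Nat.choose_le_two_pow n (n - K.card)

theorem main_log {n : ℕ} (hn : 0 < n) {gs : List Gate} (h : ComputesDFT n gs) (σ : ℂ →+* ℂ)
    (K : Finset (Fin gs.length)) (hK : K.card ≤ n) :
    ((n : ℝ) - K.card) / 2 * Real.logb 2 n - n / 2 ≤
      ∑ p ∈ Kᶜ, (gs.get p).weight σ := by
  classical
  have h1 := main_mul hn h σ (K.map Fin.valEmbedding) (by rwa [Finset.card_map])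
  rw [Finset.card_map] at h1
  set P := wprod σ (K.map Fin.valEmbedding) gs gs.length with hP
  have hPeq : P = ∏ p ∈ Kᶜ, mw σ (gs.get p) := by
    rw [hP, wprod]
    symm
    refine Finset.prod_bij (fun p _ => (p : ℕ)) ?_ ?_ ?_ ?_
    · intro p hp
      simp only [Finset.mem_filter, Finset.mem_range, p.2, true_and, Finset.mem_map,
        Fin.valEmbedding_apply, not_exists, not_and]
      intro q hq hqp
      exact (Finset.mem_compl.1 hp) (Fin.ext hqp ▸ hq)
    · intro p _ q _ hpq; exact Fin.ext hpq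
    · intro q hq
      simp only [Finset.mem_filter, Finset.mem_range, Finset.mem_map, Fin.valEmbedding_apply,
        not_exists, not_and] at hq
      exact ⟨⟨q, hq.1⟩, Finset.mem_compl.2 fun hm => hq.2 _ hm rfl, rfl⟩
    · intro p _
      rw [List.getD_eq_getElem _ _ p.2]; rfl
  have hPpos : 0 < P := by
    rw [hPeq]
    exact Finset.prod_pos fun p _ => lt_of_lt_of_le one_pos (one_le_mw σ _)
  have hlogP : Real.logb 2 P = ∑ p ∈ Kᶜ, (gs.get p).weight σ := by
    rw [hPeq, Real.logb_prod _ _ fun p _ => (lt_of_lt_of_le one_pos (one_le_mw σ _)).ne']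
    exact Finset.sum_congr rfl fun p _ => logb_mw σ _
  rw [← hlogP]
  have hn' : (0 : ℝ) < n := by exact_mod_cast hn
  have h2 := Real.logb_le_logb_of_le (b := 2) (by norm_num) (by positivity) h1
  rw [Real.logb_mul (by positivity) (by positivity), Real.logb_pow, Real.logb_pow, Real.logb_pow,
    Real.logb_self_eq_one (by norm_num), Nat.cast_sub hK] at h2
  push_cast at h2
  linarith

theorem asymptotic (ε C : ℝ) (hε : 0 < ε) :
    ∃ c : ℝ, 0 < c ∧ ∃ N : ℕ, ∀ n : ℕ, N ≤ n → ∀ gs : List Gate, ComputesDFT n gs →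
      ∀ σ : ℂ →+* ℂ,
        (Set.ncard {p : Fin gs.length | (gs.get p).Big σ C} : ℝ) ≤ (1 - ε) * n →
        c * (n * Real.logb 2 n) ≤ gs.length := by
  classical
  set D : ℝ := max 1 (Real.logb 2 (max 1 C)) with hD
  have hD1 : 1 ≤ D := le_max_left _ _
  refine ⟨ε / (4 * D), by positivity, ⌈(2 : ℝ) ^ (2 / ε)⌉₊ + 1, fun n hn gs hgs σ hcard => ?_⟩
  have hn0 : 0 < n := by omega
  have hn' : (0 : ℝ) < n := by exact_mod_cast hn0
  have hlog : 2 / ε ≤ Real.logb 2 n := by
    have h1 : (2 : ℝ) ^ (2 / ε) ≤ n := by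
      refine (Nat.le_ceil _).trans ?_
      exact_mod_cast (by omega : ⌈(2 : ℝ) ^ (2 / ε)⌉₊ ≤ n)
    have h2 := Real.logb_le_logb_of_le (b := 2) (by norm_num) (by positivity) h1
    rwa [Real.logb_rpow (by norm_num) (by norm_num)] at h2
  set K : Finset (Fin gs.length) := Finset.univ.filter fun p => (gs.get p).Big σ C with hKdef
  have hKc : (K.card : ℝ) ≤ (1 - ε) * n := by
    have : Set.ncard {p : Fin gs.length | (gs.get p).Big σ C} = K.card := by
      rw [← Set.ncard_coe_finset]
      congr 1
      ext p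
      simp [hKdef]
    rwa [this] at hcard
  have hKn : K.card ≤ n := by
    have : (K.card : ℝ) ≤ n := by nlinarith
    exact_mod_cast this
  have h1 := main_log hn0 hgs σ K hKn
  have h2 : ∑ p ∈ Kᶜ, (gs.get p).weight σ ≤ gs.length * D := by
    calc ∑ p ∈ Kᶜ, (gs.get p).weight σ ≤ ∑ p ∈ Kᶜ, D := by
          refine Finset.sum_le_sum fun p hp => ?_
          have hp' : ¬ (gs.get p).Big σ C := by
            intro hb
            exact (Finset.mem_compl.1 hp) (by simpa [hKdef] using hb)
          revert hp'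
          rcases gs.get p with ⟨i, j⟩ | ⟨i, j⟩ | ⟨c, i⟩
          · intro _; exact hD1
          · intro _; exact hD1
          · intro hc
            simp only [Gate.Big, not_lt] at hc
            refine le_trans ?_ (le_max_right _ _)
            exact Real.logb_le_logb_of_le (by norm_num) (by positivity) (max_le_max le_rfl hc)
      _ = Kᶜ.card * D := by rw [Finset.sum_const, nsmul_eq_mul]
      _ ≤ gs.length * D := by
          refine mul_le_mul_of_nonneg_right ?_ (by linarith)
          have : Kᶜ.card ≤ gs.length := by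
            simpa using Finset.card_le_univ (Kᶜ)
          exact_mod_cast this
  have h3 : ε / 2 * n * Real.logb 2 n - n / 2 ≤ gs.length * D := by
    refine le_trans ?_ (h1.trans h2)
    have hl0 : 0 ≤ Real.logb 2 n := le_trans (by positivity) hlog
    nlinarith [mul_le_mul_of_nonneg_right hKc hl0]
  have h4 : (n : ℝ) / 2 ≤ ε / 4 * n * Real.logb 2 n := by
    have h5 : 2 ≤ ε * Real.logb 2 n := by
      have := mul_le_mul_of_nonneg_left hlog hε.le
      rwa [mul_div_cancel₀ _ hε.ne'] at this
    nlinarith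
  have h6 : ε / 4 * (n * Real.logb 2 n) ≤ gs.length * D := by nlinarith
  rw [div_mul_eq_mul_div, div_le_iff₀ (by positivity)]
  nlinarith

end Vale.Agent.H27.DFT
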